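import Vale.Agent.P034.Main

open Finset

universe u

namespace Vale.Agent.Results.P034.Talagrand

/-- Talagrand's conjecture: the integral and fractional expectation thresholds agree up to a
universal constant factor. -/
theorem result : ∃ K : ℝ, ∀ (X : Type u) [Fintype X] [DecidableEq X] [Nonempty X]
    (F : Finset (Finset X)), F.Nonempty → ∅ ∉ F → (∀ S ∈ F, ∀ T, S ⊆ T → T ∈ F) →
    sSup {p : ℝ | p ∈ Set.Icc 0 1 ∧ ∃ g : Finset X → ℝ, (∀ S, g S ∈ Set.Icc 0 1) ∧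
        (∀ H ∈ F, 1 ≤ ∑ S ∈ H.powerset, g S) ∧ ∑ S, g S * p ^ S.card ≤ 1 / 2}
      ≤ K * sSup {p : ℝ | p ∈ Set.Icc 0 1 ∧ ∃ G : Finset (Finset X),
        (∀ H ∈ F, ∃ S ∈ G, S ⊆ H) ∧ ∑ S ∈ G, p ^ S.card ≤ 1 / 2} := by
  obtain ⟨K, hK⟩ : ∃ K : ℝ, K = 2 ^ 590 := ⟨_, rfl⟩
  have hK1 : (1 : ℝ) ≤ K := by rw [hK]; exact one_le_pow₀ (by norm_num)
  refine ⟨K, fun X _ _ _ F _ h0 _ => csSup_le ?_ ?_⟩
  · refine ⟨0, ⟨le_rfl, zero_le_one⟩, fun S => if S ∈ F then 1 else 0, fun S => ?_, ?_, ?_⟩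
    · simp only
      split_ifs <;> simp
    · intro H hH
      refine le_trans (le_of_eq ?_) (single_le_sum (fun S _ => by split_ifs <;> simp)
        (mem_powerset_self H))
      simp [hH]
    · refine le_trans (le_of_eq (sum_eq_zero fun S _ => ?_)) (by norm_num)
      simp only
      split_ifs with h
      · rw [zero_pow, mul_zero]
        exact fun hS => h0 (card_eq_zero.1 hS ▸ h)
      · simp
  · rintro p ⟨hp, g, hg, hcov, hw⟩
    obtain ⟨G, hG, hhit⟩ := Vale.Agent.P034.small_of_fractional hp.1 g (fun S => (hg S).1) hw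
    rw [← hK] at hG
    have hK0 : 0 < K := lt_of_lt_of_le one_pos hK1
    rw [← div_le_iff₀' hK0]
    refine le_csSup ⟨1, fun x hx => hx.1.2⟩ ⟨⟨div_nonneg hp.1 hK0.le, ?_⟩, G, ?_, hG⟩
    · rw [div_le_one hK0]
      exact hp.2.trans hK1
    · exact fun H hH => hhit H (hcov H hH)

end Vale.Agent.Results.P034.Talagrand
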